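import Vale.Agent.P307.R2.H301.Sp

set_option linter.unusedSectionVars false

universe u v w

open Cardinal Set

namespace Vale.Agent.P307.R2.H301

open Vale.Agent.P307

/-- Initial segments of `θ` of all cardinalities below `θ`. -/
theorem exists_mk_Iio {θ μ : Cardinal.{u}} (hμ : μ < θ) : ∃ y : θ.ord.ToType, #(Iio y) = μ := by
  have h1 : μ.ord < Ordinal.type (α := θ.ord.ToType) (· < ·) := by
    rw [Ordinal.type_toType]
    exact ord_lt_ord.2 hμ
  obtain ⟨y, hy⟩ := Ordinal.typein_surj (α := θ.ord.ToType) (· < ·) h1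
  refine ⟨y, ?_⟩
  have h2 := Ordinal.card_typein (α := θ.ord.ToType) (r := (· < ·)) y
  rw [hy, card_ord] at h2
  exact h2.symm

theorem mk_Iio_ord_lt {θ : Cardinal.{u}} (y : θ.ord.ToType) : #(Iio y) < θ := by
  have h2 := mk_Iio_lt y (by simp only [mk_toType, card_ord, Ordinal.type_toType])
  rwa [mk_ord_toType] at h2

theorem exists_cofinal_seq {θ : Cardinal.{u}} (hcof : θ.ord.cof = ℵ₀) :
    ∃ c : ℕ → θ.ord.ToType, ∀ x, ∃ n, x ≤ c n := by
  obtain ⟨s, hs, hsc⟩ := Order.exists_cof_eq θ.ord.ToType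
  rw [Ordinal.cof_toType, hcof] at hsc
  have hs0 : s.Nonempty := by
    rw [nonempty_iff_ne_empty]
    rintro rfl
    rw [mk_eq_zero] at hsc
    exact aleph0_ne_zero hsc.symm
  have hscount : s.Countable := by
    rw [← le_aleph0_iff_set_countable, hsc]
  obtain ⟨f, hf⟩ := hscount.exists_eq_range hs0
  refine ⟨f, fun x => ?_⟩
  obtain ⟨y, hy, hxy⟩ := hs x
  rw [hf] at hy
  obtain ⟨n, rfl⟩ := hy
  exact ⟨n, hxy⟩

/-- Levels: a cofinal sequence of initial segments with fast growing differences. -/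
theorem exists_levels {θ : Cardinal.{u}} (hθ0 : ℵ₀ < θ) (hcof : θ.ord.cof = ℵ₀)
    (hsucc : ∀ ρ < θ, Order.succ ρ < θ) (F : Cardinal.{u} → Cardinal.{u})
    (hF : ∀ ρ < θ, F ρ < θ) {l : Cardinal.{u}} (hl : l < θ) (ζ : θ.ord.ToType) :
    ∃ z : ℕ → θ.ord.ToType, Monotone z ∧ l ≤ #(Iio (z 0)) ∧ ζ ≤ z 0 ∧
      (∀ r, F #(Iio (z r)) ≤ #(Iio (z (r + 1)) \ Iio (z r) : Set θ.ord.ToType)) ∧
      ∀ x, ∃ r, x < z r := by
  obtain ⟨c, hc⟩ := exists_cofinal_seq hcof
  obtain ⟨yl, hyl⟩ := exists_mk_Iio hl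
  have hstep : ∀ y : θ.ord.ToType, ∃ y', y < y' ∧
      F #(Iio y) ≤ #(Iio y' \ Iio y : Set θ.ord.ToType) := by
    intro y
    let μ : Cardinal.{u} := max (F #(Iio y)) (max #(Iio y) ℵ₀)
    have hμ : μ < θ := max_lt (hF _ (mk_Iio_ord_lt y)) (max_lt (mk_Iio_ord_lt y) hθ0)
    have hμ0 : ℵ₀ ≤ μ := (le_max_right _ _).trans (le_max_right _ _)
    have hμ1 : #(Iio y) ≤ μ := (le_max_left _ _).trans (le_max_right _ _)
    obtain ⟨y', hy'⟩ := exists_mk_Iio (hsucc μ hμ)
    refine ⟨y', ?_, ?_⟩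
    · by_contra h
      have h1 : #(Iio y') ≤ #(Iio y) := mk_le_mk_of_subset (Iio_subset_Iio (not_lt.1 h))
      rw [hy'] at h1
      exact absurd (h1.trans hμ1) (not_le.2 (Order.lt_succ μ))
    · by_contra h
      have h1 : #(Iio y' \ Iio y : Set θ.ord.ToType) ≤ μ := (not_le.1 h).le.trans (le_max_left _ _)
      have h2 : #(Iio y') ≤ μ := by
        have h3 : Iio y' ⊆ (Iio y' \ Iio y) ∪ Iio y := by
          intro x hx
          by_cases h4 : x ∈ Iio y
          · exact Or.inr h4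
          · exact Or.inl ⟨hx, h4⟩
        refine (mk_le_mk_of_subset h3).trans ((mk_union_le _ _).trans ?_)
        exact add_le_of_le hμ0 h1 hμ1
      rw [hy'] at h2
      exact absurd h2 (not_le.2 (Order.lt_succ μ))
  choose g hg1 hg2 using hstep
  let z : ℕ → θ.ord.ToType := fun n => Nat.rec (max ζ yl) (fun n y => max (g y) (c n)) n
  have hz : ∀ n, z (n + 1) = max (g (z n)) (c n) := fun n => rfl
  have hlt : ∀ n, z n < z (n + 1) := fun n => by
    rw [hz]
    exact (hg1 _).trans_le (le_max_left _ _)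
  refine ⟨z, monotone_nat_of_le_succ fun n => (hlt n).le, ?_, le_max_left _ _, fun r => ?_,
    fun x => ?_⟩
  · exact hyl.symm.trans_le (mk_le_mk_of_subset (Iio_subset_Iio (le_max_right _ _)))
  · refine (hg2 (z r)).trans (mk_le_mk_of_subset ?_)
    exact sdiff_subset_sdiff_left (Iio_subset_Iio (by
      rw [hz]
      exact le_max_left _ _))
  · obtain ⟨n, hn⟩ := hc x
    refine ⟨n + 2, hn.trans_lt (lt_of_le_of_lt ?_ (hlt (n + 1)))⟩
    rw [hz]
    exact le_max_right _ _

/-- Increasing maps from well-orders preserve convergence, relative to all sets. -/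
theorem Conv.comp {ρ : Cardinal.{u}} {I J Q : Type u} [LinearOrder I] [WellFoundedLT I]
    [LinearOrder J] {w : SuccTy ρ → Q → I} (hw : Conv w Set.univ) {σ : I → J} (hσ : StrictMono σ)
    (Y : Set J) : Conv (fun j q => σ (w j q)) Y where
  conv q y _ := by
    classical
    -- eventually the position with respect to an upward closed set of indices is constant
    have key : ∀ p : I → Prop, (∀ a b, a ≤ b → p a → p b) →
        ∃ j₀, ∀ j, j₀ ≤ j → (p (w j q) ↔ p (w j₀ q)) := by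
      intro p hp
      by_cases h : ∃ a, p a
      · obtain ⟨a, ha, hmin⟩ := WellFounded.has_min (wellFounded_lt (α := I)) {a | p a} h
        obtain ⟨j₀, hj₀⟩ := hw.conv q a trivial
        refine ⟨j₀, fun j hj => ?_⟩
        have h1 : ∀ b, p b ↔ a ≤ b := fun b =>
          ⟨fun hb => not_lt.1 (hmin b hb), fun hb => hp a b hb ha⟩
        rw [h1, h1]
        exact (hj₀ j hj).2
      · obtain ⟨j₀⟩ : Nonempty (SuccTy ρ) := by
          rw [← mk_ne_zero_iff, mk_toType, card_ord]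
          exact (Order.bot_lt_succ ρ).ne'
        refine ⟨j₀, fun j _ => ?_⟩
        exact ⟨fun h1 => absurd ⟨_, h1⟩ h, fun h1 => absurd ⟨_, h1⟩ h⟩
    obtain ⟨j₁, h1⟩ := key (fun a => y ≤ σ a) fun a b hab h => h.trans (hσ.monotone hab)
    obtain ⟨j₂, h2⟩ := key (fun a => y < σ a) fun a b hab h => h.trans_le (hσ.monotone hab)
    refine ⟨max j₁ j₂, fun j hj => ⟨?_, ?_⟩⟩
    · rw [← not_lt, ← not_lt]
      exact not_congr ((h2 j ((le_max_right _ _).trans hj)).trans (h2 _ (le_max_right _ _)).symm)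
    · exact (h1 j ((le_max_left _ _).trans hj)).trans (h1 _ (le_max_left _ _)).symm
  pat j j' q q' := by
    rw [hσ.le_iff_le, hσ.le_iff_le]
    exact hw.pat j j' q q'

theorem LimPat.mono_right {ρ : Cardinal.{u}} {I Q : Type u} [LinearOrder I] {w : SuccTy ρ → Q → I}
    {Y Y' : Set I} {v : Q → I} (h : LimPat w Y v) (hY : Y' ⊆ Y) : LimPat w Y' v where
  conv q y hy := h.conv q y (hY hy)
  pat := h.pat

/-- Finitely many limit points, each one over the previous ones. -/
theorem exists_limPats {ρ μ : Cardinal.{u}} (hμ : ℵ₀ ≤ μ) {I J Q n : Type u} [LinearOrder I]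
    [WellFoundedLT I] [LinearOrder J] [Finite Q] [LinearOrder n] [Finite n] (hJ : Nice μ J)
    (hI : #I ≤ μ) {w : SuccTy ρ → Q → I} (hw : Conv w Set.univ) (hρ : ℵ₀ ≤ ρ) {σ : I → J}
    (hσ : StrictMono σ) : ∃ v : n → Q → J, ∀ m, LimPat (fun j q => σ (w j q))
      (range σ ∪ {x | ∃ m' < m, ∃ q, x = v m' q}) (v m) := by
  classical
  have hwf : WellFoundedLT n := inferInstance
  have P : ∀ (m : n) (prev : ∀ m', m' < m → Q → J), ∃ v : Q → J,
      LimPat (fun j q => σ (w j q)) (range σ ∪ {x | ∃ m', ∃ h : m' < m, ∃ q, x = prev m' h q})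
        v := by
    intro m prev
    refine exists_limPat hμ hJ ?_ (hw.comp hσ _) hρ
    refine (mk_union_le _ _).trans (add_le_of_le hμ (mk_range_le.trans hI) ?_)
    have h1 : {x | ∃ m', ∃ h : m' < m, ∃ q, x = prev m' h q} ⊆
        range fun p : {m' // m' < m} × Q => prev p.1.1 p.1.2 p.2 := by
      rintro x ⟨m', h, q, rfl⟩
      exact ⟨(⟨m', h⟩, q), rfl⟩
    refine (mk_le_mk_of_subset h1).trans (mk_range_le.trans ?_)
    exact (lt_aleph0_of_finite _).le.trans hμ
  let v : n → Q → J := hwf.wf.fix fun m prev => (P m prev).choose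
  refine ⟨v, fun m => ?_⟩
  have h1 : v m = (P m fun m' _ => v m').choose := hwf.wf.fix_eq _ m
  have h2 := (P m fun m' _ => v m').choose_spec
  rw [← h1] at h2
  refine h2.mono_right (union_subset_union le_rfl ?_)
  rintro x ⟨m', hm', q, rfl⟩
  exact ⟨m', hm', q, rfl⟩

end Vale.Agent.P307.R2.H301
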