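import Vale.Agent.P307.R2.H301.Cl

set_option linter.unusedSectionVars false

universe u v w

open FirstOrder Cardinal Set

namespace Vale.Agent.P307.R2.H301

open Vale.Agent.P307 Vale.Agent.P307.H304 Vale.Agent.P307.R2.H287 Language.Structure
  Language.Substructure

variable {L : Language.{u, u}} {X : Ctx L} {θ : Cardinal.{u}}
variable {M N P : Type u} [L.Structure M] [L.Structure N] [L.Structure P]

/-! Directed unions of isomorphisms. -/

theorem IsoS.funMap {f : M → N} {S : L.Substructure M} {T : L.Substructure N} (h : IsoS f S T)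
    {n : ℕ} (F : L.Functions n) (x : Fin n → M) (hx : ∀ i, x i ∈ S) :
    f (Language.Structure.funMap F x) = Language.Structure.funMap F fun i => f (x i) := by
  obtain ⟨e, he⟩ := h
  have h1 := e.map_fun F fun i => (⟨x i, hx i⟩ : S)
  have h2 := he (Language.Structure.funMap F fun i => (⟨x i, hx i⟩ : S))
  have h3 : ((Language.Structure.funMap F fun i => (⟨x i, hx i⟩ : S) : S) : M) =
      Language.Structure.funMap F x := rfl
  rw [← h3, h2, h1]
  change Language.Structure.funMap F (fun i => ((e ⟨x i, hx i⟩ : T) : N)) = _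
  congr 1
  funext i
  exact (he ⟨x i, hx i⟩).symm

theorem IsoS.relMap {f : M → N} {S : L.Substructure M} {T : L.Substructure N} (h : IsoS f S T)
    {n : ℕ} (R : L.Relations n) (x : Fin n → M) (hx : ∀ i, x i ∈ S) :
    (Language.Structure.RelMap R fun i => f (x i)) ↔ Language.Structure.RelMap R x := by
  obtain ⟨e, he⟩ := h
  have h1 := e.map_rel R fun i => (⟨x i, hx i⟩ : S)
  have h2 : (fun i => f (x i)) = fun i => ((e ⟨x i, hx i⟩ : T) : N) :=
    funext fun i => he ⟨x i, hx i⟩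
  rw [h2]
  exact h1

/-- A criterion. -/
theorem IsoS.mk' {f : M → N} {S : L.Substructure M} {T : L.Substructure N}
    (h1 : MapsTo f S T) (h2 : InjOn f S) (h3 : SurjOn f S T)
    (h4 : ∀ (n : ℕ) (F : L.Functions n) (x : Fin n → M), (∀ i, x i ∈ S) →
      f (Language.Structure.funMap F x) = Language.Structure.funMap F fun i => f (x i))
    (h5 : ∀ (n : ℕ) (R : L.Relations n) (x : Fin n → M), (∀ i, x i ∈ S) →
      ((Language.Structure.RelMap R fun i => f (x i)) ↔ Language.Structure.RelMap R x)) :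
    IsoS f S T := by
  have h6 : Function.Bijective (fun x : S => (⟨f x, h1 x.2⟩ : T)) := by
    refine ⟨fun x y hxy => Subtype.ext (h2 x.2 y.2 (congrArg Subtype.val hxy)), fun y => ?_⟩
    obtain ⟨x, hx, hxy⟩ := h3 y.2
    exact ⟨⟨x, hx⟩, Subtype.ext hxy⟩
  refine ⟨⟨Equiv.ofBijective _ h6, ?_, ?_⟩, fun x => rfl⟩
  · intro n F x
    refine Subtype.ext ?_
    exact h4 n F (fun i => x i) fun i => (x i).2
  · intro n R x
    exact h5 n R (fun i => x i) fun i => (x i).2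

/-- Coherent isomorphisms along a directed family have a union. -/
theorem IsoS.exists_iSup {ι : Type w} [Nonempty ι] (S : ι → L.Substructure M)
    (T : ι → L.Substructure N) (g : ι → M → N) (hd : ∀ i j, ∃ k, S i ≤ S k ∧ S j ≤ S k ∧
      T i ≤ T k ∧ T j ≤ T k ∧ (∀ x ∈ S i, g k x = g i x) ∧ ∀ x ∈ S j, g k x = g j x)
    (hg : ∀ i, IsoS (g i) (S i) (T i)) :
    ∃ f : M → N, IsoS f (⨆ i, S i) (⨆ i, T i) ∧ ∀ i, ∀ x ∈ S i, f x = g i x := by
  classical
  have hcoh : ∀ i j, ∀ x ∈ S i, x ∈ S j → g i x = g j x := by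
    intro i j x hi hj
    obtain ⟨k, -, -, -, -, h1, h2⟩ := hd i j
    rw [← h1 x hi, h2 x hj]
  have hdS : Directed (· ≤ ·) S := fun i j => by
    obtain ⟨k, h1, h2, -⟩ := hd i j
    exact ⟨k, h1, h2⟩
  have hdT : Directed (· ≤ ·) T := fun i j => by
    obtain ⟨k, -, -, h1, h2, -⟩ := hd i j
    exact ⟨k, h1, h2⟩
  let f : M → N := fun x => if h : ∃ i, x ∈ S i then g h.choose x else g (Classical.arbitrary ι) x
  have hf : ∀ i, ∀ x ∈ S i, f x = g i x := by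
    intro i x hx
    have h : ∃ i, x ∈ S i := ⟨i, hx⟩
    simp only [f, dif_pos h]
    exact hcoh _ _ x h.choose_spec hx
  have hmS : ∀ x, x ∈ ⨆ i, S i ↔ ∃ i, x ∈ S i := fun x =>
    Language.Substructure.mem_iSup_of_directed hdS
  have hmT : ∀ x, x ∈ ⨆ i, T i ↔ ∃ i, x ∈ T i := fun x =>
    Language.Substructure.mem_iSup_of_directed hdT
  have hfin : ∀ (n : ℕ) (x : Fin n → M), (∀ i, x i ∈ ⨆ i, S i) → ∃ k, ∀ i, x i ∈ S k := by
    intro n x hx
    choose k hk using fun i => (hmS _).1 (hx i)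
    obtain ⟨z, hz⟩ := hdS.finset_le (Finset.univ.image k)
    exact ⟨z, fun i => hz (k i) (Finset.mem_image_of_mem _ (Finset.mem_univ i)) (hk i)⟩
  refine ⟨f, IsoS.mk' ?_ ?_ ?_ ?_ ?_, hf⟩
  · intro x hx
    obtain ⟨i, hi⟩ := (hmS x).1 hx
    rw [hf i x hi]
    exact (hmT _).2 ⟨i, (hg i).mem hi⟩
  · intro x hx y hy hxy
    obtain ⟨k, hk⟩ := hfin 2 ![x, y] (by
      intro i
      fin_cases i
      · exact hx
      · exact hy)
    have hx' : x ∈ S k := hk 0
    have hy' : y ∈ S k := hk 1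
    rw [hf k x hx', hf k y hy'] at hxy
    exact (hg k).inj hx' hy' hxy
  · intro y hy
    obtain ⟨i, hi⟩ := (hmT y).1 hy
    obtain ⟨x, hx, hxy⟩ := (hg i).surj hi
    exact ⟨x, (hmS x).2 ⟨i, hx⟩, (hf i x hx).trans hxy⟩
  · intro n F x hx
    obtain ⟨k, hk⟩ := hfin n x hx
    rw [hf k _ ((S k).fun_mem F x hk), (hg k).funMap F x hk]
    congr 1
    funext i
    exact (hf k _ (hk i)).symm
  · intro n R x hx
    obtain ⟨k, hk⟩ := hfin n x hx
    rw [← (hg k).relMap R x hk]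
    have h1 : (fun i => f (x i)) = fun i => g k (x i) := funext fun i => hf k _ (hk i)
    rw [h1]

/-- Inverses as functions. -/
theorem IsoS.exists_inv' {f : M → N} {S : L.Substructure M} {T : L.Substructure N}
    (h : IsoS f S T) [Nonempty M] : ∃ g : N → M, IsoS g T S ∧ (∀ x ∈ S, g (f x) = x) ∧
      ∀ y ∈ T, f (g y) = y := h.exists_inv (Classical.arbitrary M)

theorem IsoS.unique_right {f : M → N} {S : L.Substructure M} {T T' : L.Substructure N}
    (h : IsoS f S T) (h' : IsoS f S T') : T = T' :=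
  SetLike.coe_injective (h.image.symm.trans h'.image)

namespace Ctx

section abs

variable (X) (A : ℕ → Set P) {n : Type u} (b : n → P)

/-- The faces. -/
def Fr (r : ℕ) (s : Set n) : L.Substructure P := cl X.K (A r ∪ b '' s)

/-- Coherent systems of automorphisms of the faces of level `r`. -/
structure Sys (r : ℕ) (δ : Set n → P → P) : Prop where
  iso : ∀ s, s ≠ Set.univ → IsoS (δ s) (X.Fr A b r s) (X.Fr A b r s)
  fixA : ∀ s, s ≠ Set.univ → ∀ x ∈ A r, δ s x = x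
  fixb : ∀ s, s ≠ Set.univ → ∀ m ∈ s, δ s (b m) = b m
  coh : ∀ s t, s ⊆ t → t ≠ Set.univ → ∀ x ∈ X.Fr A b r s, δ t x = δ s x

variable {X A b}

theorem Fr_mono (hA : Monotone A) {r r' : ℕ} (h : r ≤ r') {s s' : Set n} (hs : s ⊆ s') :
    X.Fr A b r s ≤ X.Fr A b r' s' :=
  cl_mono X.K (union_subset_union (hA h) (image_mono hs))

theorem Fr_le (hP : X.K.mem P) (hl : ∀ r, X.l ≤ #(A r)) (r : ℕ) (s : Set n) :
    X.K.le (X.Fr A b r s) :=
  le_cl hP ((hl r).trans (mk_le_mk_of_subset subset_union_left))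

theorem mem_Fr_A {r : ℕ} {x : P} (hx : x ∈ A r) (s : Set n) : x ∈ X.Fr A b r s :=
  subset_cl X.K _ (Or.inl hx)

theorem mem_Fr_b (r : ℕ) {m : n} {s : Set n} (hm : m ∈ s) : b m ∈ X.Fr A b r s :=
  subset_cl X.K _ (Or.inr ⟨m, hm, rfl⟩)

/-- Isomorphisms which fix the generators preserve the faces. -/
theorem isoS_Fr (hl : ∀ r, X.l ≤ #(A r)) {S T : L.Substructure P} {f : P → P}
    (h : IsoS f S T) (hS : X.K.le S) (hT : X.K.le T) {r : ℕ} {s : Set n}
    (hsub : A r ∪ b '' s ⊆ S) (hfA : ∀ x ∈ A r, f x = x) (hfb : ∀ m ∈ s, f (b m) = b m) :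
    IsoS f (X.Fr A b r s) (X.Fr A b r s) := by
  have h1 := isoS_cl (X := X) h hS hT
    ((hl r).trans (mk_le_mk_of_subset (s := A r) (t := A r ∪ b '' s) subset_union_left)) hsub
  have h2 : f '' (A r ∪ b '' s) = A r ∪ b '' s := by
    have h3 : ∀ x ∈ A r ∪ b '' s, f x = x := by
      rintro x (hx | ⟨m, hm, rfl⟩)
      · exact hfA x hx
      · exact hfb m hm
    ext y
    constructor
    · rintro ⟨x, hx, rfl⟩
      rwa [h3 x hx]
    · intro hy
      exact ⟨y, hy, h3 y hy⟩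
  rw [h2] at h1
  exact h1

theorem Sys.mono (hP : X.K.mem P) (hA : Monotone A) (hl : ∀ r, X.l ≤ #(A r)) {r R : ℕ}
    (h : r ≤ R) {δ : Set n → P → P} (hδ : X.Sys A b R δ) : X.Sys A b r δ where
  iso s hs := isoS_Fr hl (hδ.iso s hs) (Fr_le hP hl R s) (Fr_le hP hl R s)
    ((subset_cl X.K _).trans (Fr_mono hA h le_rfl)) (fun x hx => hδ.fixA s hs x (hA h hx))
    (hδ.fixb s hs)
  fixA s hs x hx := hδ.fixA s hs x (hA h hx)
  fixb := hδ.fixb
  coh s t hst ht x hx := hδ.coh s t hst ht x (Fr_mono hA h le_rfl hx)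

/-- The reflection property of the top vertex `j`. -/
def ReflF (X : Ctx L) (A : ℕ → Set P) (b : n → P) : Prop :=
  ∀ (r : ℕ) (j : n), ∃ r', r ≤ r' ∧ ∃ (ψ : P → P) (T : L.Substructure P),
    IsoS ψ (X.Fr A b r Set.univ) T ∧ T ≤ X.Fr A b r' {j}ᶜ ∧ X.K.le T ∧
      (∀ x ∈ X.Fr A b r {j}ᶜ, ψ x = x) ∧ ψ (b j) ∈ A r'

theorem compl_ne_univ (j : n) : ({j}ᶜ : Set n) ≠ Set.univ := fun h => by
  have h1 : j ∈ ({j}ᶜ : Set n) := h ▸ mem_univ j
  exact h1 rfl

theorem exists_stair (hP : X.K.mem P) (hA : Monotone A) (hl : ∀ r, X.l ≤ #(A r))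
    (hrefl : X.ReflF A b) (c : Finset n) : ∀ r, ∃ R, r ≤ R ∧ ∀ δ, X.Sys A b R δ →
      (∀ s, (∃ j, j ∉ c ∧ j ∉ s) → ∀ x ∈ X.Fr A b R s, δ s x = x) →
        ∃ ε, IsoS ε (X.Fr A b r Set.univ) (X.Fr A b r Set.univ) ∧
          ∀ s, s ≠ Set.univ → ∀ x ∈ X.Fr A b r s, ε x = δ s x := by
  classical
  induction c using Finset.induction_on with
  | empty =>
    intro r
    refine ⟨r, le_rfl, fun δ hδ h1 => ⟨fun x => x, IsoS.id _, fun s hs x hx => ?_⟩⟩
    obtain ⟨j, hj⟩ := (ne_univ_iff_exists_notMem s).1 hs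
    exact (h1 s ⟨j, by simp, hj⟩ x hx).symm
  | insert j c hjc ih =>
    intro r
    obtain ⟨R₁, hR₁, ih⟩ := ih r
    obtain ⟨R, hR, ψ, T, hψ, hTR, hT, hψ1, hψ2⟩ := hrefl R₁ j
    refine ⟨R, hR₁.trans hR, fun δ hδ htriv => ?_⟩
    have : Nonempty P := ⟨b j⟩
    have hj1 : ({j}ᶜ : Set n) ≠ Set.univ := compl_ne_univ j
    have hψA : ∀ x ∈ A R₁, ψ x = x := fun x hx => hψ1 x (mem_Fr_A hx _)
    have hψb : ∀ m, m ≠ j → ψ (b m) = b m := fun m hm => hψ1 _ (mem_Fr_b _ hm)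
    have hleU : X.K.le (X.Fr A b R₁ Set.univ) := Fr_le hP hl _ _
    -- `T` is preserved by `δ {j}ᶜ`
    have hT1 : T = cl X.K (ψ '' (A R₁ ∪ b '' Set.univ)) := hψ.unique_right
      (isoS_cl (X := X) hψ hleU hT ((hl R₁).trans (mk_le_mk_of_subset subset_union_left))
        (subset_cl X.K _))
    have hfix : ∀ y ∈ ψ '' (A R₁ ∪ b '' Set.univ), δ {j}ᶜ y = y := by
      rintro _ ⟨x, (hx | ⟨m, -, rfl⟩), rfl⟩
      · rw [hψA x hx]
        exact hδ.fixA _ hj1 x (hA hR hx)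
      · by_cases hm : m = j
        · rw [hm]
          exact hδ.fixA _ hj1 _ hψ2
        · rw [hψb m hm]
          exact hδ.fixb _ hj1 m hm
    have hTT : IsoS (δ {j}ᶜ) T T := by
      have h1 : ψ '' (A R₁ ∪ b '' Set.univ) ⊆ X.Fr A b R {j}ᶜ := by
        refine Subset.trans ?_ hTR
        rintro _ ⟨x, hx, rfl⟩
        exact hψ.mem (subset_cl X.K _ hx)
      have h2 := isoS_cl (X := X) (hδ.iso _ hj1) (Fr_le hP hl _ _) (Fr_le hP hl _ _)
        (A := ψ '' (A R₁ ∪ b '' Set.univ)) (by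
          rw [mk_image_eq_of_injOn _ _ (hψ.inj.mono (subset_cl X.K _))]
          exact (hl R₁).trans (mk_le_mk_of_subset subset_union_left)) h1
      have h3 : δ {j}ᶜ '' (ψ '' (A R₁ ∪ b '' Set.univ)) = ψ '' (A R₁ ∪ b '' Set.univ) := by
        ext y
        constructor
        · rintro ⟨x, hx, rfl⟩
          rwa [hfix x hx]
        · intro hy
          exact ⟨y, hy, hfix y hy⟩
      rw [h3, ← hT1] at h2
      exact h2
    obtain ⟨φ, hφ, hφ1, hφ2⟩ := hψ.exists_inv'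
    -- the automorphism `η`
    let η : P → P := φ ∘ (δ {j}ᶜ ∘ ψ)
    have hη : IsoS η (X.Fr A b R₁ Set.univ) (X.Fr A b R₁ Set.univ) := hφ.comp (hTT.comp hψ)
    have hη1 : ∀ s, j ∉ s → ∀ x ∈ X.Fr A b R₁ s, η x = δ s x := by
      intro s hs x hx
      have hs1 : s ⊆ {j}ᶜ := fun m hm hmj => hs (hmj ▸ hm)
      have hs2 : s ≠ Set.univ := fun h => hs (h ▸ mem_univ j)
      have h1 : ψ x = x := hψ1 x (Fr_mono hA le_rfl hs1 hx)
      have h2 : δ {j}ᶜ x = δ s x := hδ.coh s _ hs1 hj1 x (Fr_mono hA hR le_rfl hx)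
      have h3 : δ s x ∈ X.Fr A b R₁ s := ((hδ.mono hP hA hl hR).iso s hs2).mem hx
      have h4 : ψ (δ s x) = δ s x := hψ1 _ (Fr_mono hA le_rfl hs1 h3)
      change φ (δ {j}ᶜ (ψ x)) = δ s x
      rw [h1, h2]
      conv_lhs => rw [← h4]
      exact hφ1 _ (Fr_mono hA le_rfl (subset_univ s) h3)
    have hη2 : ∀ s, j ∈ s → (∃ j₀, j₀ ∉ insert j c ∧ j₀ ∉ s) → ∀ x ∈ X.Fr A b R₁ s, η x = x := by
      intro s hs hj₀ x hx
      obtain ⟨j₀, h1, h2⟩ := hj₀
      have h3 : IsoS ψ (X.Fr A b R₁ s) (cl X.K (ψ '' (A R₁ ∪ b '' s))) :=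
        isoS_cl (X := X) hψ hleU hT ((hl R₁).trans (mk_le_mk_of_subset subset_union_left))
          ((subset_cl X.K _).trans (Fr_mono (X := X) (b := b) hA le_rfl (subset_univ s)))
      have h4 : cl X.K (ψ '' (A R₁ ∪ b '' s)) ≤ X.Fr A b R (s \ {j}) := by
        refine cl_le X.K (Fr_le hP hl _ _) ?_
        rintro _ ⟨y, (hy | ⟨m, hm, rfl⟩), rfl⟩
        · rw [hψA y hy]
          exact mem_Fr_A (hA hR hy) _
        · by_cases hmj : m = j
          · rw [hmj]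
            exact mem_Fr_A hψ2 _
          · rw [hψb m hmj]
            exact mem_Fr_b _ ⟨hm, hmj⟩
      have h5 : ψ x ∈ X.Fr A b R (s \ {j}) := h4 (h3.mem hx)
      have h6 : s \ {j} ⊆ ({j}ᶜ : Set n) := fun m hm => hm.2
      change φ (δ {j}ᶜ (ψ x)) = x
      rw [hδ.coh _ _ h6 hj1 _ h5, htriv (s \ {j}) ⟨j₀, h1, fun h => h2 h.1⟩ _ h5]
      exact hφ1 _ (Fr_mono hA le_rfl (subset_univ s) hx)
    have hηA : ∀ x ∈ A R₁, η x = x := by
      intro x hx
      rw [hη1 ∅ (by simp) x (mem_Fr_A hx _)]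
      have h0 : (∅ : Set n) ≠ Set.univ := fun h => by
        have h1 : j ∈ (∅ : Set n) := by
          rw [h]
          exact mem_univ j
        exact h1
      exact hδ.fixA _ h0 x (hA hR hx)
    have hηb : ∀ m, η (b m) = b m := by
      intro m
      change φ (δ {j}ᶜ (ψ (b m))) = b m
      rw [hfix _ ⟨b m, Or.inr ⟨m, mem_univ m, rfl⟩, rfl⟩]
      exact hφ1 _ (mem_Fr_b _ (mem_univ m))
    obtain ⟨ηi, hηi, hηi1, hηi2⟩ := hη.exists_inv'
    have hηiA : ∀ x ∈ A R₁, ηi x = x := fun x hx => by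
      conv_lhs => rw [← hηA x hx]
      exact hηi1 x (mem_Fr_A hx _)
    have hηib : ∀ m, ηi (b m) = b m := fun m => by
      conv_lhs => rw [← hηb m]
      exact hηi1 _ (mem_Fr_b _ (mem_univ m))
    have hδ1 : X.Sys A b R₁ δ := hδ.mono hP hA hl hR
    obtain ⟨ε', h1, h2⟩ := ih (fun s x => ηi (δ s x)) {
      iso := fun s hs => by
        have h1 : IsoS ηi (X.Fr A b R₁ s) (X.Fr A b R₁ s) := isoS_Fr hl hηi hleU hleU
          ((subset_cl X.K _).trans (Fr_mono (X := X) (b := b) hA le_rfl (subset_univ s)))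
          hηiA (fun m _ => hηib m)
        exact h1.comp (hδ1.iso s hs)
      fixA := fun s hs x hx => by rw [hδ1.fixA s hs x hx, hηiA x hx]
      fixb := fun s hs m hm => by rw [hδ1.fixb s hs m hm, hηib m]
      coh := fun s t hst ht x hx => by rw [hδ1.coh s t hst ht x hx] } (by
        rintro s ⟨j₀, h1, h2⟩ x hx
        by_cases hj : j ∈ s
        · have h3 : j₀ ∉ insert j c := by
            rw [Finset.mem_insert]
            rintro (h | h)
            · exact h2 (h ▸ hj)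
            · exact h1 h
          change ηi (δ s x) = x
          rw [htriv s ⟨j₀, h3, h2⟩ x (Fr_mono hA hR le_rfl hx)]
          conv_lhs => rw [← hη2 s hj ⟨j₀, h3, h2⟩ x hx]
          exact hηi1 x (Fr_mono hA le_rfl (subset_univ s) hx)
        · rw [← hη1 s hj x hx]
          exact hηi1 x (Fr_mono hA le_rfl (subset_univ s) hx))
    refine ⟨η ∘ ε', ?_, fun s hs x hx => ?_⟩
    · have h3 : IsoS η (X.Fr A b r Set.univ) (X.Fr A b r Set.univ) := isoS_Fr hl hη hleU hleU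
        ((subset_cl X.K _).trans (Fr_mono (X := X) (b := b) hA hR₁ le_rfl))
        (fun x hx => hηA x (hA hR₁ hx)) (fun m _ => hηb m)
      exact h3.comp h1
    · change η (ε' x) = δ s x
      rw [h2 s hs x hx]
      exact hηi2 _ (Fr_mono hA hR₁ (subset_univ s)
        (((hδ1.mono hP hA hl hR₁).iso s hs).mem hx))

theorem Fr_ne_univ (hn : 2 ≤ #n) (m : n) : ({m} : Set n) ≠ Set.univ := by
  intro h
  have h1 : #n ≤ 1 := by
    rw [← mk_univ, ← h, mk_singleton]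
  exact absurd (hn.trans h1) (not_le.2 Cardinal.one_lt_two)

theorem empty_ne_univ (hn : 2 ≤ #n) : (∅ : Set n) ≠ Set.univ := by
  intro h
  have h1 : #n = 0 := by
    rw [← mk_univ, ← h, mk_eq_zero]
  rw [h1] at hn
  exact absurd (Cardinal.one_lt_two.trans_le hn) not_lt_zero

theorem mem_iUnion_Fr (hP : X.K.mem P) (hA : Monotone A) (hl : ∀ r, X.l ≤ #(A r)) {s : Set n}
    [Finite n] {x : P} (hx : x ∈ cl X.K ((⋃ r, A r) ∪ b '' s)) : ∃ r, x ∈ X.Fr A b r s := by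
  have h1 : (⋃ r, A r) ∪ b '' s ∪ A 0 = (⋃ r, A r) ∪ b '' s := by
    apply union_eq_self_of_subset_right
    exact (subset_iUnion A 0).trans subset_union_left
  rw [← h1] at hx
  obtain ⟨t, ht, htf, hxt⟩ := exists_finite hP (hl 0) hx
  have h2 : ∃ r, t ⊆ A r ∪ b '' s := by
    have h3 : ∀ y : t, ∃ r, (y : P) ∈ A r ∪ b '' s := by
      rintro ⟨y, hy⟩
      rcases ht hy with h | h
      · obtain ⟨r, hr⟩ := mem_iUnion.1 h
        exact ⟨r, Or.inl hr⟩
      · exact ⟨0, Or.inr h⟩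
    choose r hr using h3
    have : Finite t := htf
    obtain ⟨R, hR⟩ := (Set.finite_range r).bddAbove
    refine ⟨R, fun y hy => ?_⟩
    rcases hr ⟨y, hy⟩ with h | h
    · exact Or.inl (hA (hR ⟨⟨y, hy⟩, rfl⟩) h)
    · exact Or.inr h
  obtain ⟨r, hr⟩ := h2
  refine ⟨r, cl_mono X.K ?_ hxt⟩
  exact union_subset hr ((hA (Nat.zero_le r)).trans subset_union_left)

/-- The lifting property. -/
def LiftF (X : Ctx L) (A : ℕ → Set P) (b : n → P) : Prop :=
  ∀ (r : ℕ) (g : P → P), IsoS g (X.Fr A b (r + 1) Set.univ) (X.Fr A b (r + 1) Set.univ) →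
    (∀ s, s ≠ Set.univ → ∀ x ∈ X.Fr A b (r + 1) s, g x = x) →
      ∃ g₂ : P → P, IsoS g₂ (X.Fr A b (r + 2) Set.univ) (X.Fr A b (r + 2) Set.univ) ∧
        (∀ s, s ≠ Set.univ → ∀ x ∈ X.Fr A b (r + 2) s, g₂ x = x) ∧
          ∀ x ∈ X.Fr A b r Set.univ, g₂ x = g x

/-- Uniqueness from reflection and lifting. -/
theorem nu_abs (hP : X.K.mem P) (hA : Monotone A) (hl : ∀ r, X.l ≤ #(A r)) [Finite n]
    (hn : 2 ≤ #n) (hrefl : X.ReflF A b) (hlift : X.LiftF A b) (δ : Set n → P → P)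
    (h1 : ∀ s, s ≠ Set.univ → IsoS (δ s) (cl X.K ((⋃ r, A r) ∪ b '' s))
      (cl X.K ((⋃ r, A r) ∪ b '' s)))
    (h2 : ∀ s, s ≠ Set.univ → ∀ x ∈ ⋃ r, A r, δ s x = x)
    (h3 : ∀ s, s ≠ Set.univ → ∀ m ∈ s, δ s (b m) = b m)
    (h4 : ∀ s t, s ⊆ t → t ≠ Set.univ → ∀ x ∈ cl X.K ((⋃ r, A r) ∪ b '' s), δ t x = δ s x) :
    ∃ ε : P → P, IsoS ε (cl X.K ((⋃ r, A r) ∪ b '' Set.univ))
      (cl X.K ((⋃ r, A r) ∪ b '' Set.univ)) ∧
      ∀ s, s ≠ Set.univ → ∀ x ∈ cl X.K ((⋃ r, A r) ∪ b '' s), ε x = δ s x := by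
  classical
  have hn0 : Nonempty n := by
    by_contra h
    rw [not_nonempty_iff] at h
    rw [mk_eq_zero] at hn
    exact absurd (Cardinal.one_lt_two.trans_le hn) not_lt_zero
  have hne : Nonempty P := ⟨b (Classical.arbitrary n)⟩
  have hleω : ∀ s : Set n, X.K.le (cl X.K ((⋃ r, A r) ∪ b '' s)) := fun s =>
    le_cl hP ((hl 0).trans (mk_le_mk_of_subset ((subset_iUnion A 0).trans subset_union_left)))
  have hFω : ∀ r s, X.Fr A b r s ≤ cl X.K ((⋃ r, A r) ∪ b '' s) := fun r s =>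
    cl_mono X.K (union_subset_union (subset_iUnion A r) le_rfl)
  have hsys : ∀ r, X.Sys A b r δ := fun r =>
    { iso := fun s hs => isoS_Fr hl (h1 s hs) (hleω s) (hleω s)
        (union_subset_union (subset_iUnion A r) le_rfl |>.trans (subset_cl X.K _))
        (fun x hx => h2 s hs x (mem_iUnion.2 ⟨r, hx⟩)) (h3 s hs)
      fixA := fun s hs x hx => h2 s hs x (mem_iUnion.2 ⟨r, hx⟩)
      fixb := h3
      coh := fun s t hst ht x hx => h4 s t hst ht x (hFω r s hx) }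
  -- the sets `T r`
  let T : ℕ → (P → P) → Prop := fun r g => IsoS g (X.Fr A b r Set.univ) (X.Fr A b r Set.univ) ∧
    ∀ s, s ≠ Set.univ → ∀ x ∈ X.Fr A b r s, g x = δ s x
  have hTA : ∀ r g, T r g → ∀ x ∈ A r, g x = x := fun r g hg x hx => by
    rw [hg.2 ∅ (empty_ne_univ hn) x (mem_Fr_A hx _)]
    exact (hsys r).fixA _ (empty_ne_univ hn) x hx
  have hTb : ∀ r g, T r g → ∀ m, g (b m) = b m := fun r g hg m => by
    rw [hg.2 {m} (Fr_ne_univ hn m) _ (mem_Fr_b r rfl)]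
    exact (hsys r).fixb _ (Fr_ne_univ hn m) m rfl
  have hTmono : ∀ r r' g, r' ≤ r → T r g → T r' g := fun r r' g hr hg =>
    ⟨isoS_Fr hl hg.1 (Fr_le hP hl _ _) (Fr_le hP hl _ _)
      ((subset_cl X.K _).trans (Fr_mono (X := X) (b := b) hA hr le_rfl))
      (fun x hx => hTA r g hg x (hA hr hx)) (fun m _ => hTb r g hg m),
      fun s hs x hx => hg.2 s hs x (Fr_mono hA hr le_rfl hx)⟩
  have hTne : ∀ r, ∃ g, T r g := by
    intro r
    have := Fintype.ofFinite n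
    obtain ⟨R, hR, h5⟩ := exists_stair hP hA hl hrefl (Finset.univ : Finset n) r
    obtain ⟨ε, h6, h7⟩ := h5 δ (hsys R) (by
      rintro s ⟨j, hj, -⟩
      exact absurd (Finset.mem_univ j) hj)
    exact ⟨ε, h6, h7⟩
  have hTlift : ∀ r g, T (r + 1) g → ∃ g', T (r + 2) g' ∧
      ∀ x ∈ X.Fr A b r Set.univ, g' x = g x := by
    intro r g hg
    obtain ⟨h, hh⟩ := hTne (r + 2)
    have hh1 : T (r + 1) h := hTmono _ _ h (Nat.le_succ _) hh
    obtain ⟨hi, hhi, hhi1, hhi2⟩ := hh1.1.exists_inv'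
    obtain ⟨g₂, h5, h6, h7⟩ := hlift r (hi ∘ g) (hhi.comp hg.1) (by
      intro s hs x hx
      change hi (g x) = x
      rw [hg.2 s hs x hx, ← hh1.2 s hs x hx]
      exact hhi1 x (Fr_mono hA le_rfl (subset_univ s) hx))
    refine ⟨h ∘ g₂, ⟨hh.1.comp h5, fun s hs x hx => ?_⟩, fun x hx => ?_⟩
    · change h (g₂ x) = δ s x
      rw [h6 s hs x hx]
      exact hh.2 s hs x hx
    · change h (g₂ x) = g x
      rw [h7 x hx]
      exact hhi2 _ (hg.1.mem (Fr_mono hA (Nat.le_succ r) le_rfl hx))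
  obtain ⟨g₀, hg₀⟩ := hTne 1
  choose F hF1 hF2 using hTlift
  let G : ∀ k : ℕ, {g : P → P // T (k + 1) g} := fun k =>
    Nat.rec ⟨g₀, hg₀⟩ (fun k g => ⟨F k g.1 g.2, hF1 k g.1 g.2⟩) k
  have hG : ∀ k, ∀ x ∈ X.Fr A b k Set.univ, (G (k + 1)).1 x = (G k).1 x := fun k x hx =>
    hF2 k (G k).1 (G k).2 x hx
  have hG2 : ∀ k d, ∀ x ∈ X.Fr A b k Set.univ, (G (k + d)).1 x = (G k).1 x := by
    intro k d
    induction d with
    | zero => exact fun x _ => rfl
    | succ d ih => exact fun x hx =>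
        (hG (k + d) x (Fr_mono hA (Nat.le_add_right k d) le_rfl hx)).trans (ih x hx)
  have hG3 : ∀ k k', k ≤ k' → ∀ x ∈ X.Fr A b k Set.univ, (G k').1 x = (G k).1 x := by
    intro k k' hk x hx
    obtain ⟨d, rfl⟩ := Nat.exists_eq_add_of_le hk
    exact hG2 k d x hx
  have hG4 : ∀ k, T k (G k).1 := fun k => hTmono (k + 1) k _ (Nat.le_succ k) (G k).2
  obtain ⟨ε, h5, h6⟩ := IsoS.exists_iSup (fun k : ℕ => X.Fr A b k Set.univ)
    (fun k => X.Fr A b k Set.univ) (fun k => (G k).1) (by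
      intro i j
      refine ⟨max i j, Fr_mono hA (le_max_left _ _) le_rfl, Fr_mono hA (le_max_right _ _) le_rfl,
        Fr_mono hA (le_max_left _ _) le_rfl, Fr_mono hA (le_max_right _ _) le_rfl,
        hG3 i _ (le_max_left _ _), hG3 j _ (le_max_right _ _)⟩) fun k => (hG4 k).1
  have hsup : (⨆ k : ℕ, X.Fr A b k Set.univ) = cl X.K ((⋃ r, A r) ∪ b '' Set.univ) := by
    apply le_antisymm
    · exact iSup_le fun k => hFω k _
    · intro x hx
      obtain ⟨r, hr⟩ := mem_iUnion_Fr hP hA hl hx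
      exact le_iSup (fun k : ℕ => X.Fr A b k Set.univ) r hr
  refine ⟨ε, hsup ▸ h5, fun s hs x hx => ?_⟩
  obtain ⟨r, hr⟩ := mem_iUnion_Fr hP hA hl hx
  rw [h6 r x (Fr_mono hA le_rfl (subset_univ s) hr)]
  exact (hG4 r).2 s hs x hr

end abs

end Ctx

end Vale.Agent.P307.R2.H301
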