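import Vale.Agent.P307.R2.H301.Min
import Vale.Agent.P307.R2.H346.Lev
import Vale.Agent.P307.R2.H346.NuA

set_option linter.unusedSectionVars false

universe u v w

open FirstOrder Cardinal Set

namespace Vale.Agent.P307.R2.H301

open Vale.Agent.P307 Vale.Agent.P307.H304 Vale.Agent.P307.R2.H287 Language.Structure
  Language.Substructure

variable {L : Language.{u, u}} {X : Ctx L} {θ : Cardinal.{u}}
variable {M N P : Type u} [L.Structure M] [L.Structure N] [L.Structure P]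

namespace Ctx

/-- Limits of standard sequences do not fork. -/
theorem SRep.nf (hθ : X.Adm3 θ) {A : EM X.t θ.ord.ToType} {i : A.N ↪[L] N} {b : N}
    (R : SRep X θ X.H A i b) {J : Type u} [LinearOrder J] (hJ : θ ≤ #J) (B : EM X.t J)
    {σ : θ.ord.ToType → J} (f : A.N ↪[L] B.N)
    (hf : ∀ s : (exLang L X.t.Λ).Term θ.ord.ToType,
      f (s.realize A.c) = s.realize fun i => B.c (σ i))
    {Y : Set J} {v : R.Q → J} (hv : LimPat (fun j q => σ (R.w j q)) Y v)
    {M' : L.Substructure B.N} (hM' : X.K.le M')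
    (hMY : (M' : Set B.N) ⊆ closure (exLang L X.t.Λ) (B.c '' Y)) (e : A.N → M)
    (k : M ↪[L] M') (hk : ∀ x, (k (e x) : B.N) = f x) (hθM' : θ ≤ #M') :
    X.NF θ k M'.subtype (R.τ.realize fun q => B.c (v q)) := by
  have hH : X.l ≤ R.ρ := X.le_H.trans R.hχ
  refine ⟨R.ρ, fun j => e (R.τ.realize fun q => A.c (R.w j q)), X.hK.1.trans hH, R.hχ, R.hρ,
    fun D hD => ?_⟩
  obtain ⟨j₀, hj₀⟩ := real hθ.toAdm B hJ hH R.hρ R.τ hv (hD.trans R.hχ)
    (fun d : D => ((d : M') : B.N)) (fun d => hMY (d : M').2)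
  refine ⟨j₀, fun j hj => ?_⟩
  have h1 := E.of_emb (X := X) hθ.toAdm M'.subtype (AEC.emb_subtype.2 hM') hθM'
    (adj (fun d : D => (d : M')) (k (e (R.τ.realize fun q => A.c (R.w j q)))))
  refine h1.trans ?_
  have h2 := hj₀ j hj
  have h3 : (fun a => M'.subtype (adj (fun d : D => (d : M'))
      (k (e (R.τ.realize fun q => A.c (R.w j q)))) a)) =
      adj (fun d : D => ((d : M') : B.N)) (R.τ.realize fun q => B.c (σ (R.w j q))) := by
    funext a
    rcases a with d | a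
    · rfl
    · have h4 := hf (R.τ.relabel (R.w j))
      rw [Language.Term.realize_relabel, Language.Term.realize_relabel] at h4
      exact (hk _).trans h4
  rw [h3]
  exact h2

theorem mk_em (A : EM X.t θ.ord.ToType) (hθ : X.Adm θ) : #A.N = θ :=
  A.card_eq hθ.lt.le (mk_ord_toType θ)

theorem mk_cl_union (hθ : X.Adm θ) (hN : X.K.mem N) {f : M → N} (hf : Function.Injective f)
    (hM : #M = θ) {n : Type u} [Finite n] (b : n → N) (s : Set n) :
    #(cl X.K (range f ∪ b '' s)) = θ := by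
  have h0 : ℵ₀ ≤ θ := hθ.aleph0_lt.le
  have h1 : #(range f) = θ := (mk_range_eq f hf).trans hM
  apply le_antisymm
  · refine (mk_cl_le hN _).trans (add_le_of_le h0 ?_ hθ.lt.le)
    refine (mk_union_le _ _).trans (add_le_of_le h0 h1.le ?_)
    exact (mk_image_le.trans (mk_set_le s)).trans ((lt_aleph0_of_finite n).le.trans h0)
  · exact h1.symm.trans_le (mk_le_mk_of_subset (subset_union_left.trans (subset_cl X.K _)))

theorem le_cl_union (hθ : X.Adm θ) (hN : X.K.mem N) {f : M → N} (hf : Function.Injective f)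
    (hM : #M = θ) (Z : Set N) : X.K.le (cl X.K (range f ∪ Z)) :=
  le_cl hN ((hθ.lt.le.trans ((mk_range_eq f hf).trans hM).ge).trans
    (mk_le_mk_of_subset subset_union_left))

/-- The embedding into a substructure containing the range. -/
theorem exists_codRestrict (i : M ↪[L] N) (hi : X.K.Emb i) {S : L.Substructure N}
    (hS : X.K.le S) (hiS : range i ⊆ S) : ∃ k : M ↪[L] S, X.K.Emb k ∧ ∀ m, (k m : N) = i m := by
  have h1 : ∀ m, i m ∈ S := fun m => hiS ⟨m, rfl⟩
  refine ⟨i.codRestrict S h1, ?_, fun m => rfl⟩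
  refine AEC.Emb.of_comp (g := S.subtype) (AEC.emb_subtype.2 hS) ?_
  exact hi

/-- Standard realizations of a minimal type. -/
theorem MinPt.exists_std (hθ : X.Adm3 θ) (q : MinPt X θ) (n : Type u) [LinearOrder n]
    [Finite n] : ∃ (J : Type u) (_ : LinearOrder J) (B : EM X.t J) (σ : θ.ord.ToType → J)
      (f : q.M ↪[L] B.N) (b : n → B.N) (W : Set J) (ζ : θ.ord.ToType), StrictMono σ ∧
      X.K.Emb f ∧ range f = (closure (exLang L X.t.Λ) (B.c '' range σ) : Set B.N) ∧ W.Finite ∧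
      (∀ x ∈ W, x < σ ζ) ∧ (∀ m, b m ∈ closure (exLang L X.t.Λ) (B.c '' W)) ∧
      (∀ m, q.Real f (b m)) ∧ ∀ m, ∀ s ⊆ Iio m, b m ∉ cl X.K (range f ∪ b '' s) := by
  have h0 : ℵ₀ ≤ θ := hθ.aleph0_lt.le
  obtain ⟨A⟩ := exists_em X.t θ.ord.ToType
  have hA := mk_em A hθ.toAdm
  have hθq : #q.M = θ := q.card
  obtain ⟨e₀, -⟩ := exists_iso_of_E (ι := PEmpty.{u + 1}) hθ.toAdm A.mem q.emb.mem_left hA hθq
    (by rw [mk_pempty]; exact (aleph0_pos.trans_le h0)) (x := PEmpty.elim) (y := PEmpty.elim)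
    (E.empty hθ.toAdm ⟨A.mem, hA.ge⟩ ⟨q.emb.mem_left, hθq.ge⟩ _ _)
  have hie : X.K.Emb (q.i.comp e₀.toEmbedding) :=
    AEC.Emb.comp q.emb (AEC.Emb.of_equiv e₀ A.mem)
  obtain ⟨R⟩ := exists_srep hθ.toAdm1 X.le_H hθ.H A (q.i.comp e₀.toEmbedding) hie q.b
  obtain ⟨J, _, σ, hJ, hσ⟩ := exists_nice_ext θ h0 θ.ord.ToType
  obtain ⟨B⟩ := exists_em X.t J
  obtain ⟨f, hf1, hf2⟩ := A.exists_map B σ hσ
  have hJθ : θ ≤ #J := by
    rw [← mk_ord_toType θ]
    exact mk_le_of_injective hσ.injective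
  have hρ : ℵ₀ ≤ R.ρ := (X.hK.1.trans X.le_H).trans R.hχ
  obtain ⟨v, hv⟩ := exists_limPats (n := n) h0 hJ (mk_ord_toType θ).le R.conv hρ hσ
  obtain ⟨ζ, hζ⟩ := R.bdd
  let b : n → B.N := fun m => R.τ.realize fun p => B.c (v m p)
  let f' : q.M ↪[L] B.N := f.comp e₀.symm.toEmbedding
  have hf'1 : X.K.Emb f' := AEC.Emb.comp hf1 (AEC.Emb.of_equiv e₀.symm q.emb.mem_left)
  have hf'2 : ∀ x, f' (e₀ x) = f x := fun x => by
    change f (e₀.symm (e₀ x)) = f x
    rw [e₀.symm_apply_apply]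
  have hrange : range f' = (closure (exLang L X.t.Λ) (B.c '' range σ) : Set B.N) := by
    ext y
    constructor
    · rintro ⟨x, rfl⟩
      obtain ⟨a, rfl⟩ := e₀.surjective x
      rw [hf'2]
      obtain ⟨s, rfl⟩ : ∃ s : (exLang L X.t.Λ).Term θ.ord.ToType, s.realize A.c = a := by
        have h2 : a ∈ closure (exLang L X.t.Λ) (range A.c) := by rw [A.top]; trivial
        exact Gr.mem_closure_range.1 h2
      rw [hf2, ← range_comp, SetLike.mem_coe]
      exact Gr.mem_closure_range.2 ⟨s, rfl⟩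
    · intro hy
      rw [← range_comp, SetLike.mem_coe] at hy
      obtain ⟨s, rfl⟩ := Gr.mem_closure_range.1 hy
      exact ⟨e₀ (s.realize A.c), (hf'2 _).trans (hf2 s)⟩
  have hreal : ∀ m, q.Real f' (b m) := by
    intro m
    have h1 : X.SE θ X.H (q.i.comp e₀.toEmbedding) q.b f (b m) :=
      R.se hθ.toAdm1 X.le_H hie B σ hσ f hf2 (v m) ((hv m).mono_right subset_union_left)
    have h2 : X.GE (q.i.comp e₀.toEmbedding) q.b f (b m) :=
      ge_of_H hθ A.mem hA hie hf1 h1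
    have h3 := h2.equiv (M' := q.M) e₀.symm
    have h4 : (q.i.comp e₀.toEmbedding).comp e₀.symm.toEmbedding = q.i := by
      ext x
      change q.i (e₀ (e₀.symm x)) = q.i x
      rw [e₀.apply_symm_apply]
    rw [h4] at h3
    exact h3
  refine ⟨J, inferInstance, B, σ, f', b, range fun p : n × R.Q => v p.1 p.2, ζ, hσ, hf'1,
    hrange, finite_range _, ?_, ?_, hreal, ?_⟩
  · rintro _ ⟨⟨m, p⟩, rfl⟩
    obtain ⟨j₀, hj₀⟩ := (hv m).conv p (σ ζ) (Or.inl ⟨ζ, rfl⟩)
    have h1 := (hj₀ j₀ le_rfl).2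
    by_contra h2
    exact absurd (h1.2 (not_lt.1 h2)) (not_le.2 (hσ (hζ j₀ p)))
  · intro m
    have h1 : b m ∈ closure (exLang L X.t.Λ) (range fun p : R.Q => B.c (v m p)) :=
      Gr.mem_closure_range.2 ⟨R.τ, rfl⟩
    refine closure_mono ?_ h1
    rintro _ ⟨p, rfl⟩
    exact ⟨v m p, ⟨(m, p), rfl⟩, rfl⟩
  · intro m s hs
    have hBmem := B.mem
    let S : L.Substructure B.N := cl X.K (range f' ∪ b '' s)
    have hS : X.K.le S := le_cl_union hθ.toAdm hBmem f'.injective hθq _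
    have hSθ : #S = θ := mk_cl_union hθ.toAdm hBmem f'.injective hθq b s
    have hfS : range f' ⊆ S := subset_union_left.trans (subset_cl X.K _)
    obtain ⟨k, hk1, hk2⟩ := exists_codRestrict f' hf'1 hS hfS
    let Y : Set J := range σ ∪ {x | ∃ m' < m, ∃ q, x = v m' q}
    have hSY : (S : Set B.N) ⊆ closure (exLang L X.t.Λ) (B.c '' Y) := by
      have h1 : X.K.le ((exHom L X.t.Λ).substructureReduct
          (closure (exLang L X.t.Λ) (B.c '' Y))) :=
        (em_le (exHom L X.t.Λ) B.isEM B.top X.t.cl).2 Y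
      have h2 : range f' ∪ b '' s ⊆ ((exHom L X.t.Λ).substructureReduct
          (closure (exLang L X.t.Λ) (B.c '' Y)) : Set B.N) := by
        rintro y (hy | ⟨m', hm', rfl⟩)
        · rw [hrange] at hy
          exact closure_mono (image_mono subset_union_left) hy
        · have h3 : b m' ∈ closure (exLang L X.t.Λ) (range fun p : R.Q => B.c (v m' p)) :=
            Gr.mem_closure_range.2 ⟨R.τ, rfl⟩
          refine closure_mono ?_ h3
          rintro _ ⟨p, rfl⟩
          exact ⟨v m' p, Or.inr ⟨m', hs hm', p, rfl⟩, rfl⟩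
      exact fun y hy => cl_le X.K h1 h2 hy
    have hnf : X.NF θ k S.subtype (b m) :=
      R.nf hθ hJθ B f hf2 (hv m) hS hSY e₀ k (fun x => (hk2 _).trans (hf'2 x)) hSθ.ge
    have h1 := NF.notMem hθ hθq hSθ hk1 (AEC.emb_subtype.2 hS) hnf (by
      rintro ⟨x, hx⟩
      have h2 := (GE.mem_range_iff (hreal m) x).2 (by
        rw [← hx]
        exact hk2 x)
      exact q.notMem ⟨x, h2.symm⟩)
    exact fun h2 => h1 ⟨⟨b m, h2⟩, rfl⟩

end Ctx

end Vale.Agent.P307.R2.H301
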